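import Vale.Agent.P167.H199.DT.Sub
import Vale.Agent.P167.H259.C.Out
import Vale.Agent.P167.N.H947.DT.Gap

/-!
# P167, `0 < q < 1`, route (C): the output of the driver tightness
-/

set_option autoImplicit false

namespace Vale.Agent.P167.N.H199.DT

open Vale.Agent.P167
open Vale.Agent.P167.QE

/-- **[DT]**: for `0 < q < 1` every subsequence of the interfaces of any approximation of any marked
Jordan domain has a further subsequence which converges in law to the image of the trace of a Loewner
chain with a random continuous driver. -/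
theorem dt_out {q : ℝ} (h1 : Kit (√q)) (hcross : I_crossW (wq q)) (hfin : I_finW (wq q))
    (hnf : I_nfW (wq q)) : Vale.Agent.P167.H259.C.DTOut q :=
  Vale.Agent.P167.H199.DT.s_sub (wq_pos h1.q_pos) Vale.Agent.P153.R2.R1.i_uinj
    Vale.Agent.P167.H411.i_rado6
    (fun _ _ _ _ _ _ _ _ H => N.H947.DT.gap_wq h1 Vale.Agent.P153.R2.R1.i_uinj H) hcross hfin hnf

end Vale.Agent.P167.N.H199.DT
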